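import Crest.Agent.X212.Sw87.MoS

/-!
# Row 212, GEO engine (helper5): the marks of the reflection paths
-/

set_option autoImplicit false
set_option linter.unusedSectionVars false
noncomputable section
open scoped Manifold ContDiff Topology InnerProductSpace
open MeasureTheory Set Function Filter

namespace Crest.Agent.X212.Mk5
open An Cyf70 Sw Flo2 Geo28 Met55 Pen22 Sw87.Mo
open Bor5.T (O3 Q3 Pb Cur)
open Dr59 (Cs pm mf HZ)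

variable {mk : Mk κ0 L0 ν0} {X : M4} {τ : MT κ0 X} {k k' k'' : ℕ}

theorem mt_of {J r} {f : X.M → X.M} : ∀ {a : Option O3} (e : Ec a X J), (∀ p, e.tm p ∈ J → f p = p) →
    Ec.Mt r f e e
  | none, _, _ => trivial
  | some _, e, h => fun y t ht _ => h _ ((Nc.tmk e (y, t) ((Nc.src e).ge ⟨trivial, ht⟩)).symm ▸ ht :
      Nc.tm e _ ∈ J)

/-- a reflection is an isomorphism -/
def rIso {a b} {T : Pm a b none} (ρ : Rf T) (n : T.nb = 0) : T.Iso T :=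
  ⟨ρ.toDif, mt_of _ fun p h => ρ.id p fun c => (mem_Iio.1 h).not_ge c.1,
    mt_of _ fun p h => ρ.id p fun c => (mem_Ioi.1 h).not_ge c.2.1, trivial, rfl, fun j => (j.cast n).elim0⟩

theorem sa_symm {β : MB τ k} {β' : MB τ k'} {c : MC μ0 β} {c' : MC μ0 β'} {t t'} (h : Sa c' c t' t) :
    Sa c c' t t' := ⟨h.e.symm, h.v.symm, h.fo.symm, h.mc.symm, h.η.symm⟩

theorem sa_trans {β : MB τ k} {β' : MB τ k'} {β'' : MB τ k''} {c : MC μ0 β} {c' : MC μ0 β'} {c'' : MC μ0 β''}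
    {t t' t''} (h : Sa c'' c' t'' t') (h' : Sa c' c t' t) : Sa c'' c t'' t :=
  ⟨h.e.trans h'.e, h.v.trans h'.v, h.fo.trans h'.fo, h.mc.trans h'.mc, h.η.trans h'.η⟩

theorem v_eq {β : MB τ k} {β' : MB τ k'} (w : ∀ c, β.wl c = none) (w' : ∀ c, β'.wl c = none) (t t') :
    β'.v t' = β.v t := funext fun _ => by
  rw [β.v_no fun a => w a ▸ nofun, β'.v_no fun a => w' a ▸ nofun]

/-- restriction without walls -/
theorem rsw (H : Lf) (β : MB τ k) (w : ∀ c, β.wl c = none) (π : Fin k → Fin k' ⊕ ℝ)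
    (h : ∀ c a, π c = .inr a → a ∈ Icc (0 : ℝ) 1) : ∃ β' : MB τ k', (∀ c, β'.wl c = none) ∧
      (∀ t, β'.e t = β.e (sb π t)) ∧ ∀ c : MC μ0 β, ∃ c' : MC μ0 β', c'.toMM = c.toMM ∧
        (∀ d, c.Cl d → c'.Cl d) ∧ ∀ t, Sa c' c t (sb π t) :=
  let ⟨β', a, b⟩ := res H.res β (π := π) (w := fun _ => none) ⟨fun c _ _ => (w c).symm,
    fun _ e => (e rfl).elim, fun c a e => ⟨fun k => (k (w c)).elim, h c a e⟩⟩
  ⟨β', congrFun a, b⟩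

/-- **the blend with masses** -/
theorem blm (H : Lf) (β₀ : MB τ k) (β' : MB τ k') (a : Fin k) (ι : Fin k' → Fin k) (w₀ : ∀ c, β₀.wl c = none)
    (w' : ∀ c, β'.wl c = none) (n : τ.nc = 0) : ∃ β, Bw β₀ β' a ι β ∧ ∀ (c₀ : MC μ0 β₀) (c' : MC μ0 β'),
      ∃ c : MC μ0 β, BwC c₀ c' a ι c ∧ ∀ t, c.mc t = sT (t a) • c₀.mc t := by
  obtain ⟨δ, w, e, h⟩ := rsw H β' w' (fun c => .inl (ι c)) nofun
  obtain ⟨β, b1, b2, b3, b4⟩ := H.bl β₀ δ.e (fun t => 1 - sT (t a))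
    (contDiff_const.sub (Real.smoothTransition.contDiff.comp (contDiff_apply ℝ ℝ a)))
    (fun t => ⟨sub_nonneg.2 (Real.smoothTransition.le_one _), sub_le_self _ (Real.smoothTransition.nonneg _)⟩)
    (fun t => by rw [clp, w₀]; exact congrArg (1 - ·) (sT_clp _)) (fun c k => (k (w₀ c)).elim) δ.sm δ.sp
    (fun t _ => (funext fun c => (w c).trans (w₀ c).symm : δ.wl = β₀.wl) ▸ δ.ret t)
    (fun t i k _ x hx => by
      have v : τ.sw δ.wl t i = τ.sw β₀.wl t i := congrFun (v_eq w₀ w t t) i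
      have : atx (β₀.e t) x = atx (δ.e t) x := funext fun b => (mf_refl x _).symm.trans
        (Emo56.cor_e (NB.cor_refl _) (fun _ => mdifferentiableAt_id) (β₀.lit t i k)
          (v ▸ δ.lit t i (k.trans_eq v.symm)) hx b)
      rw [this]
      exact fun _ _ => rfl) fun c _ k => nomatch (w₀ c).symm.trans k
  refine ⟨β, ⟨b1, fun t k => b2 t (by rw [sT1 k, sub_self]), fun t x p q => by
    rw [b3, sub_sub_cancel, e]; rfl⟩, fun c₀ c' => ?_⟩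
  obtain ⟨y, -, -, s⟩ := h c'
  obtain ⟨c, m, d, l⟩ := b4 c₀ y.fo 0 0 y.cs
    (by simpa only [pm_refl] using (H.pb.f y (.refl X) (β₀.e 0) (β₀.fr 0)).2)
    (fun _ _ _ => contMDiffAt_const) (by simp) (by simp)
    (fun t i k _ x hx => ⟨y.f0 t i (k.trans_eq (congrFun (v_eq w₀ w t t) i).symm) x hx, rfl⟩)
    (fun j => (j.cast n).elim0) fun _ j => (j.cast n).elim0
  have : ∀ t, c.mc t = sT (t a) • c₀.mc t := fun t => by rw [(l t).2.1]; simp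
  exact ⟨c, ⟨m, d, fun t => by rw [(l t).1, sub_sub_cancel, (s t).fo]; rfl,
    fun z => funext fun t => by rw [this, z]; simp⟩, this⟩

theorem fi_bw {β₀ β : MB τ k} {β' : MB τ k'} {a ι} (h : Bw β₀ β' a ι β) {t} (e : t a = 0) {ψ : X.M → X.M} {v}
    (f : FI ψ v (β'.e (t ∘ ι))) : FI ψ v (β.e t) := fun x p q => by
  have := h.co t (ψ x) p q
  rw [e, sT0, zero_mul, zero_add, sub_zero, one_mul] at this
  exact (f x p q).trans this.symm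

variable (mk) in
/-- a module on a cobordism without boxes -/
structure Cob (M : MM μ0 τ) : Prop where
  pk : Pk mk M
  bd : ∃ K, ∀ i, EBd K (M.ty i)
  nc : τ.nc = 0
  pin : τ.pin ≠ none
  p3 : τ.p3 = none

theorem Cob.gd {β : MB τ k} {c : MC μ0 β} (h : Cob mk c.toMM) (w : ∀ a, β.wl a = none) :
    Gd mk c.toMM β.wl :=
  ⟨h.pk.ok, fun i e => h.pk.q i (e.resolve_right fun ⟨a, e⟩ => nomatch (w a).symm.trans e), h.bd⟩

theorem Cob.ro (H : Lf) {β : MB τ k} {c : MC μ0 β} (h : Cob mk c.toMM) (w : ∀ a, β.wl a = none) (k2 : k ≤ 2)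
    {S} (l : Hl c S) : ∃ C, Ro mk (c.gc c.en1 C) :=
  let ⟨C, hC⟩ := H.bd β Unit (fun _ => c) S l.fin l.cs (fun _ => l.mem) (h.bd.imp fun _ k _ => k)
    (.inr ⟨inferInstance, fun _ a e => (e (w a)).elim⟩)
  ⟨C, (h.gd w).ro H k2 (fun _ => h.nc) (fun e => (e h.p3).elim) (ens := c.en1)
    (fun _ => ⟨rfl, finite_singleton _⟩) (hC ()) fun e => (h.pin e).elim⟩

/-- facets by restriction -/
theorem fcs (H : Lf) {β : MB τ k} {β' : MB τ k'} {c : MC μ0 β} {c' : MC μ0 β'} {a s} {ι : Fin k' → Fin k}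
    (M : c'.toMM = c.toMM) (hι : Injective ι) (w : ∀ a, β.wl a = none) (w' : ∀ a, β'.wl a = none)
    (h : ∀ t, t a = s → Sa c' c (t ∘ ι) t) : FcM c c' a s ι (.refl _) :=
  ⟨0, fc_sa M (D := {t ∈ dom β.wl | t a = s}) hι (fun a => (w' a).trans (w _).symm) (fun t k => h t k.2)
    fun t => (H.pz.ok c t).1.bg⟩

/-- facets by isometries -/
theorem fci (H : Lf) {β : MB τ k} {β' : MB τ k'} {c : MC μ0 β} {c' : MC μ0 β'} {a s} {ι : Fin k' → Fin k}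
    {ψ : X.Dif X} {r d d'} (E : EI τ τ ψ.φ r) (hι : Injective ι) (w : ∀ a, β.wl a = none)
    (w' : ∀ a, β'.wl a = none) (ty : ∀ i' i, r i' i → c'.ty i' = c.ty i) (hd' : c'.Cl d') (hd : c.Cl d)
    (hp : Pb ψ.φ univ d d') (b : Cob mk c'.toMM) (m : c'.mc = 0) (h : ∀ t, t a = s →
      FI ψ.φ (β'.e (t ∘ ι)) (β.e t) ∧ pm X.I X.I ψ.φ (c.fo t) = c'.fo (t ∘ ι) ∧ c.mc t = 0) :
    FcM c c' a s ι (oph ψ) :=
  ⟨0, ft0 H.iso (D := {t ∈ dom β.wl | t a = s}) E (fun a => .inl ⟨w' a, w _⟩) hι ty hd' hd hp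
    (fun i => lgE (b.pk.ok i)) (fun i e => ((b.pk.ok i).qhs (b.pk.q i e)).2.1) b.nc fun t ht =>
      ⟨fun a _ e => (e (w a)).elim, (h t ht.2).1, (h t ht.2).2.1, (h t ht.2).2.2, congrFun m _⟩⟩

/-- the facet -/
def ft {β : MB τ k} {β' : MB τ k'} {c : MC μ0 β} {c' : MC μ0 β'} {a s ι φ} (h : FcM c c' a s ι φ)
    (rg : range ι = {a}ᶜ) (ens C) {ens' C'} (t : Tr (c'.gc ens' C')) : Ft (c.gc ens C) a ⟨_, t⟩ s :=
  ⟨ι, φ, h.choose, rg, h.choose_spec _ _ _ _⟩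

theorem i1 {α : Type} (f : Fin 1 → α) : Injective f := fun _ _ _ => Subsingleton.elim _ _

theorem ps_seg {d : X.L} {f g : X.Fm} (h : X.Seg d ((2 : ℝ) • f) ((2 : ℝ) • g)) :
    ∀ e ∈ convexHull ℝ {f, g}, X.Ps d ((2 : ℝ) • e) := fun e he => by
  rw [convexHull_pair, segment_eq_image] at he
  obtain ⟨s, k, rfl⟩ := he
  convert h s k using 1
  module

variable (mk) in
/-- the side `t 0 = s` of the square `y` from the point `q` to the point of `c` at `s` -/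
structure Ed {β : MB τ 2} {β₁ : MB τ 1} {βP : MB τ 0} (y : MC μ0 β) (c : MC μ0 β₁) (q : MC μ0 βP) (s : ℝ)
    (ψ : X.Dif X) : Type 1 where
  β0 : MB τ 0
  x : MC μ0 β0
  βz : MB τ 1
  z : MC μ0 βz
  C0 : ℕ → ℝ
  Cz : ℕ → ℝ
  M : x.toMM = c.toMM
  r0 : Ro mk (x.gc x.en1 C0)
  rz : Ro mk (z.gc z.en1 Cz)
  nr : (z.gc z.en1 Cz).NoRed
  wl : ∀ a, βz.wl a = none
  cx : FcM c x 0 s e0 (.refl _)
  yz : FcM y z 0 s ![1] (.refl _)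
  zq : FcM z q 0 0 e0 (oph ψ)
  zx : FcM z x 0 1 e0 (.refl _)

theorem edge (H : Lf) {β : MB τ 2} {β₁ : MB τ 1} {βP : MB τ 0} {y : MC μ0 β} {c : MC μ0 β₁} {q : MC μ0 βP}
    {s : ℝ} (hs : s ∈ Icc (0 : ℝ) 1) {ψ : X.Dif X} {r d d' f} (w : ∀ a, β.wl a = none)
    (w₁ : ∀ a, β₁.wl a = none) (M : c.toMM = y.toMM) (b : Cob mk y.toMM) (hd : y.Cl d)
    (sa : ∀ t, t 1 = 1 → Sa c y (t ∘ ![0]) t) (cs : Cs X.I 2 univ f)
    (fo : ∀ t, t 0 = s → y.fo t = sT (t 1) • c.fo (fun _ => s) + (1 - sT (t 1)) • f)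
    (sg : X.Seg d ((2 : ℝ) • f) ((2 : ℝ) • c.fo fun _ => s)) (E : EI τ τ ψ.φ r)
    (ty : ∀ i' i, r i' i → q.ty i' = y.ty i) (hd' : q.Cl d') (hp : Pb ψ.φ univ d d') (b' : Cob mk q.toMM)
    (m : q.mc = 0) (h : ∀ t, t 0 = s → t 1 = 0 → FI ψ.φ (βP.e 0) (β.e t) ∧ y.mc t = 0)
    (fq : pm X.I X.I ψ.φ f = q.fo 0) : Nonempty (Ed mk y c q s ψ) := by
  obtain ⟨β0, w0, -, h0⟩ := rsw (k' := 0) H β₁ w₁ (fun _ => .inr s) (by rintro _ _ ⟨⟩; exact hs)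
  obtain ⟨x, mx, -, sx⟩ := h0 c
  obtain ⟨βz, wz, -, hz⟩ := rsw (k' := 1) H β w ![.inr s, .inl 0]
    (Fin.forall_fin_two.2 ⟨by rintro _ ⟨⟩; exact hs, nofun⟩)
  obtain ⟨z, mz, dz, sz⟩ := hz y
  have bz : Cob mk z.toMM := mz ▸ b
  have l : Hl z {f, c.fo fun _ => s} := ⟨toFinite _, by
    rintro _ (rfl | rfl)
    exacts [cs, c.cs _], fun t _ => by
    rw [(sz t).fo, fo _ rfl, convexHull_pair, add_comm]
    exact ⟨_, _, sub_nonneg.2 (Real.smoothTransition.le_one _), Real.smoothTransition.nonneg _,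
      sub_add_cancel _ _, rfl⟩⟩
  obtain ⟨C0, r0⟩ := Cob.ro (c := x) H (mx ▸ M ▸ b) w0 zero_le_two (hl0 x)
  obtain ⟨Cz, rz⟩ := bz.ro H wz one_le_two l
  refine ⟨⟨β0, x, βz, z, C0, Cz, mx, r0, rz, (bz.gd wz).nored H l (dz d hd) (ps_seg sg) _ _, wz,
    fcs H mx (fun a => a.elim0) w₁ w0 fun t e => ?_, fcs H mz (i1 _) w wz fun t e => ?_,
    fci H E (fun a => a.elim0) wz (fun a => a.elim0) (mz ▸ ty) hd' (dz d hd) hp b' m fun t e => ?_,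
    fcs H (mx.trans (M.trans mz.symm)) (fun a => a.elim0) wz w0 fun t e => ?_⟩⟩
  · obtain rfl : t = fun _ => s := funext fun a => Subsingleton.elim a 0 ▸ e
    exact sx _
  · have := sz (t ∘ ![1])
    rwa [show sb ![.inr s, .inl 0] (t ∘ ![1]) = t from funext (Fin.forall_fin_two.2 ⟨e.symm, rfl⟩)] at this
  · rw [t0 (t ∘ _), (sz t).e, (sz t).mc, (sz t).fo, fo _ rfl, ← fq,
      show sb ![.inr s, .inl 0] t 1 = 0 from e, sT0]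
    exact ⟨(h _ rfl e).1, by simp, (h _ rfl e).2⟩
  · have := sa (sb ![.inr s, .inl 0] t) e
    rw [show sb ![.inr s, .inl 0] t ∘ ![0] = fun _ => s from funext (Fin.forall_fin_one.2 rfl)] at this
    exact sa_trans (sx _) (sa_trans this (sa_symm (sz t)))

theorem rg (a b : Fin 2) (h : a ≠ b) : range ![a] = {b}ᶜ := by
  ext c
  revert a b c
  decide

theorem bd_ka {a b : EE mk} {σ : C2 a b} {l n} (h : (KC mk).Bd σ l n) : (KA mk).Bd σ l n :=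
  ⟨h.fc, h.nk, h.cp⟩

theorem q_of {A : EE mk} (h : (KA mk).qhs A) : A.Q := by
  obtain ⟨_, rfl, k⟩ := h
  rintro _ ⟨⟩
  exact k

section
variable {𝒯 : Set TY} {A B : EE mk} {I : Type} {β : MB τ 0} {F : PF 𝒯 A B none β I} {r : I → I} {φ : X.Dif X}
  {βΓ : MB τ 1} (G : IF F r φ βΓ) (i : I)

theorem cl_itv : (G.c i).Cl (F.d i) := G.hd ▸ G.cl i

theorem hl_itv : Hl (G.c i) {(F.c i).fo 0, pm X.I X.I φ.φ ((F.c (r i)).fo 0)} :=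
  ⟨toFinite _, by
    have := (G.im i).mvc (G.mc i) rfl
    rintro _ (rfl | rfl)
    · exact (F.c i).cs 0
    · simpa [(G.im i).fo, s1, sT1] using (G.c i).cs 1, fun t _ => (G.im i).hull t⟩

theorem hi0 (H : Lf) (qa : A.Q) (b : Cob mk (F.c i).toMM)
    (sg : X.Seg (F.d i) ((2 : ℝ) • (F.c i).fo 0) ((2 : ℝ) • pm X.I X.I φ.φ ((F.c (r i)).fo 0))) :
    (KC mk).hi0 (G.itv i).cell :=
  .inl ⟨(Cob.gd (c := G.c i) ((G.im i).M ▸ b) (G.im i).wl).nored H (hl_itv G i) (cl_itv G i) (ps_seg sg) _ _,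
    C3.kp _ qa, (G.im i).wl⟩

/-- **the square of a wall crossing** -/
theorem hi1 (H : Lf) (W : MwcStmt mk) (L : Bl μ0 β β φ βΓ) (qa : (KA mk).qhs A) (qb : (KA mk).qhs B)
    (E : EI τ τ φ.symm.φ (rP τ τ)) (b : ∀ i, Cob mk (F.c i).toMM) (cb : Cb mk (F.c i).toMM)
    (pb : Pb φ.φ univ (F.d (r i)) (F.d i)) (hb : X.Bp 1) {η η'} (hc : X.Crs (F.d i) η η')
    (f0 : (F.c i).fo 0 = (1 / 2 : ℝ) • η) (f1 : pm X.I X.I φ.φ ((F.c (r i)).fo 0) = (1 / 2 : ℝ) • η') :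
    (KC mk).hi1 (G.itv i).cell := by
  have J := G.im i
  have n := (b i).nc
  have hl := hl_itv G i
  have g0 : (G.c i).fo 0 = (F.c i).fo 0 := by simp [J.fo, s1]
  have g1 : (G.c i).fo 1 = pm X.I X.I φ.φ ((F.c (r i)).fo 0) := by simp [J.fo, s1, sT1]
  obtain ⟨β₁, w₁, e₁, h₁⟩ := rsw (k' := 1) H β (fun a => a.elim0) (fun a => a.elim0) fun a => a.elim0
  have e₁' : ∀ t, β₁.e t = β.e 0 := fun t => (e₁ t).trans (congrArg _ (t0 _))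
  obtain ⟨c₀, m₀, d₀, s₀⟩ := h₁ (F.c i)
  obtain ⟨c₁, m₁, o₁, -⟩ := H.cst β₁ c₀.toMM ((G.c i).fo 1) c₀.mon ((G.c i).cs 1) fun j a =>
    (G.c i).f0 1 j (by
      rw [βΓ.v_end (a.resolve_right fun ⟨c, e⟩ => nomatch (w₁ c).symm.trans e)]; norm_num)
  obtain ⟨c₂, m₂, o₂⟩ := H.mix c₀ c₁ s1 m₁ s1_sm
  obtain ⟨c, m, sg0, sg1, hu, hi⟩ := W c₂ (F.d i) η η' (m₂ ▸ m₀ ▸ cb) n
    (by rw [MC.Cl, m₂]; exact d₀ _ (F.cl i)) hb hc (w₁ 0) (fun t => (e₁' t).trans (e₁' 0).symm)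
    (by rw [(o₂ 0).1, (s₀ 0).fo, t0 (sb _ _), f0]; simp [s1])
    (by rw [(o₂ 1).1, o₁, g1, f1]; simp [s1, sT1])
  have M : c.toMM = (F.c i).toMM := m.trans (m₂.trans m₀)
  have dc : c.Cl (F.d i) := by rw [MC.Cl, m, m₂]; exact d₀ _ (F.cl i)
  obtain ⟨β₂, w₂, e₂, h₂⟩ := rsw (k' := 2) H β₁ w₁ (fun _ => .inl 0) nofun
  have sb0 : ∀ t : Tk 2, sb (fun _ : Fin 1 => .inl 0) t = t ∘ ![0] := fun t =>
    funext (Fin.forall_fin_one.2 rfl)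
  obtain ⟨c₃, m₃, d₃, s₃⟩ := h₂ c
  obtain ⟨δ, Bδ, h⟩ := blm H β₂ βΓ 1 ![0] w₂ J.wl n
  obtain ⟨y, By, my⟩ := h c₃ (G.c i)
  have w : ∀ a, δ.wl a = none := fun a => Bδ.wl ▸ w₂ a
  have My : y.toMM = (F.c i).toMM := By.M.trans (m₃.trans M)
  have dy : y.Cl (F.d i) := By.cl _ (d₃ _ dc)
  have fy : ∀ t, y.fo t = sT (t 1) • c.fo (t ∘ ![0]) + (1 - sT (t 1)) • (G.c i).fo (t ∘ ![0]) := fun t => by
    rw [By.fo, (s₃ t).fo, sb0]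
  have z : ∀ t : Tk 2, t 1 = 0 → y.mc t = 0 := fun t e => by rw [my, e, sT0, zero_smul]
  have sa : ∀ t, t 1 = 1 → Sa c y (t ∘ ![0]) t := fun t e =>
    ⟨by rw [Bδ.e1 t e.ge, e₂, sb0], v_eq w w₁ _ _, by rw [fy, e, sT1 le_rfl]; simp,
      by rw [my, e, sT1 le_rfl, one_smul, (s₃ t).mc, sb0], funext fun j => (j.cast n).elim0⟩
  have c1 : ∀ (t : Tk 2) s, t 0 = s → t ∘ ![0] = fun _ => s := fun t s e => funext (Fin.forall_fin_one.2 e)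
  have bY : Cob mk y.toMM := My ▸ b i
  obtain ⟨D₀⟩ := edge (q := F.c i) (s := 0) (ψ := .refl X) (f := (G.c i).fo 0) H ⟨le_rfl, zero_le_one⟩ w w₁
    (M.trans My.symm) bY dy sa ((G.c i).cs 0) (fun t e => by rw [fy, c1 t 0 e]; rfl)
    (by rw [g0, f0, two_half]; exact sg0) (EI.refl τ) (fun _ _ e => e ▸ congrArg (MM.ty · _) My.symm)
    (F.cl i) Rfl19.pb_id (b i) (F.mc i)
    (fun t e e' => ⟨fi_bw Bδ e' (fi_eq (L.e0 _ e).symm), z t e'⟩) ((pm_refl _).trans g0)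
  obtain ⟨D₁⟩ := edge (q := F.c (r i)) (s := 1) (ψ := φ.symm) (f := (G.c i).fo 1) H ⟨zero_le_one, le_rfl⟩ w w₁
    (M.trans My.symm) bY dy sa ((G.c i).cs 1) (fun t e => by rw [fy, c1 t 1 e]; rfl)
    (by rw [g1, f1, two_half]; exact sg1) E
    (fun _ _ e => My ▸ J.M ▸ (pe_of (J.f1 (G.c i).en1 (F.c (r i)).en1 0 0)).ty e)
    (F.cl (r i)) (Rfl19.pb_symm pb) (b _) (F.mc _)
    (fun t e e' => ⟨fi_bw Bδ e' (L.mv.e1 t e), z t e'⟩) (by rw [g1, pm_symm])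
  have lc : Hl c {c.fo 0, c.fo 1} := ⟨toFinite _, by
    rintro _ (rfl | rfl)
    exacts [c.cs 0, c.cs 1], fun t k => by rw [convexHull_pair]; exact hu t k⟩
  obtain ⟨Cc, rc⟩ := Cob.ro (c := c) H (M ▸ b i) w₁ one_le_two lc
  obtain ⟨Cy, ry⟩ := bY.ro H w le_rfl (S := _ ∪ _) ⟨lc.fin.union hl.fin, fun f k => k.elim (lc.cs f) (hl.cs f),
    fun t k => fy t ▸ convex_convexHull ℝ _
      (convexHull_mono subset_union_left (lc.mem _ fun a => ⟨(k _).1, fun _ => (k _).2 (w _)⟩))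
      (convexHull_mono subset_union_right ((G.im i).hull _)) (Real.smoothTransition.nonneg _)
      (sub_nonneg.2 (Real.smoothTransition.le_one _)) (add_sub_cancel _ _)⟩
  have y0 : FcM y (G.c i) 1 0 ![0] (oph (.refl X)) := fci H (EI.refl τ) (i1 _) w J.wl
    (fun _ _ e => e ▸ congrArg (MM.ty · _) (J.M.trans My.symm)) (cl_itv G i) dy Rfl19.pb_id (J.M ▸ b i) (G.mc i)
    fun t e => ⟨Bδ.fi0 e.le, by rw [pm_refl, fy, e, sT0]; simp, z t e⟩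
  have y1 : FcM y c 1 1 ![0] (.refl _) := fcs H (M.trans My.symm) (i1 _) w w₁ sa
  have pt : ∀ {β0 : MB τ 0} {x : MC μ0 β0}, x.toMM = c.toMM → τ.pin.map x.ty = A.ty (F.s i) ∧
      τ.pout.map x.ty = B.ty (F.t i) ∧ τ.p3.map x.ty = EE.ty (mk := mk) none () := fun e => by
    rw [e, M]
    exact ⟨F.hs i, F.ht i, F.hu i⟩
  let p₀ : C2 A B := C3.pt D₀.r0 rfl _ _ () (pt D₀.M).1 (pt D₀.M).2.1 (pt D₀.M).2.2
  let p₁ : C2 A B := C3.pt D₁.r0 rfl _ _ () (pt D₁.M).1 (pt D₁.M).2.1 (pt D₁.M).2.2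
  let u : Itv p₀ p₁ := ⟨⟨_, rc, 0, fun _ => Subsingleton.elim _ _⟩,
    ⟨w₁ 0, ft D₀.cx rg0 _ _ p₀.τ, ft D₁.cx rg0 _ _ p₁.τ⟩, C3.pt_p0 .., C3.pt_p0 ..⟩
  let v₀ : Itv (F.pt i) p₀ := ⟨⟨_, D₀.rz, 0, fun _ => Subsingleton.elim _ _⟩,
    ⟨D₀.wl 0, ft D₀.zq rg0 _ _ (F.pt i).τ, ft D₀.zx rg0 _ _ p₀.τ⟩, F.p0 _, C3.pt_p0 ..⟩
  let v₁ : Itv (F.pt (r i)) p₁ := ⟨⟨_, D₁.rz, 0, fun _ => Subsingleton.elim _ _⟩,
    ⟨D₁.wl 0, ft D₁.zq rg0 _ _ (F.pt (r i)).τ, ft D₁.zx rg0 _ _ p₁.τ⟩, F.p0 _, C3.pt_p0 ..⟩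
  let S : SqI (G.itv i) u v₀ v₁ := ⟨⟨_, ry, 1, 0, (by decide : (1 : Fin 2) ≠ 0),
    (by decide : ∀ a : Fin 2, a = 1 ∨ a = 0)⟩,
    ⟨w 1, ft y0 (rg 0 1 (by decide)) _ _ (G.itv i).cell.τ, ft y1 (rg 0 1 (by decide)) _ _ u.cell.τ⟩,
    ⟨w 0, ft D₀.yz (rg 1 0 (by decide)) _ _ v₀.cell.τ, ft D₁.yz (rg 1 0 (by decide)) _ _ v₁.cell.τ⟩,
    fun _ _ _ => rfl, fun _ _ _ => rfl, fun _ _ _ => rfl, fun _ _ _ => rfl⟩
  exact .inr ⟨qa, qb, S.cell, u.cell, _, bd_ka (S.bd (q_of qa)), ⟨u.irr', hi _ _⟩, rfl,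
    List.forall_mem_cons.2 ⟨⟨D₀.nr, C3.kp _ (q_of qa), D₀.wl⟩,
      List.forall_mem_singleton.2 ⟨D₁.nr, C3.kp _ (q_of qa), D₁.wl⟩⟩⟩

end

theorem cb_of {𝓔 : Ends mk} {A B : Q3} {T : Pm (some A.toO3) (some B.toO3) none} {τ : MT κ0 T.X} {M : MM μ0 τ}
    (o : OnP T τ (𝓔.q A).g (𝓔.q B).g ()) {s t} (hs : τ.pin.map M.ty = (𝓔.ob A).ty s)
    (ht : τ.pout.map M.ty = (𝓔.ob B).ty t) (en : ∀ i, End.OK mk (M.ty i).1)
    (h1 : HZ T.X.I 1 (univ : Set T.M)) : Cb mk M := by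
  obtain ⟨i, a1, a2⟩ := Option.map_eq_some_iff.1 hs
  obtain ⟨j, b1, b2⟩ := Option.map_eq_some_iff.1 ht
  have p3 := Option.map_eq_none_iff.1 o.p3
  have k : ∀ l, (τ.nb l).s ≠ none → l = i ∨ l = j := fun l e => (τ.port e).imp
    (fun e => Option.some.inj (e.symm.trans a1)) fun e =>
      Option.some.inj ((e.resolve_right (p3 ▸ nofun)).symm.trans b1)
  refine ⟨⟨i, a1, kd_of hs (Ends.en_q (some A)) a1⟩, ⟨j, b1, kd_of ht (Ends.en_q (some B)) b1⟩, p3, en,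
    fun l e => ?_, fun l e => ?_, h1⟩ <;> obtain rfl | rfl := k l e
  · exact ⟨A, congrArg (·.e.A) (Option.some.inj ((congrArg (Option.map _) a1).symm.trans o.pin))⟩
  · exact ⟨B, congrArg (·.e.A) (Option.some.inj ((congrArg (Option.map _) b1).symm.trans o.pout))⟩
  · exact a2 ▸ (𝓔.q A).red s
  · exact b2 ▸ (𝓔.q B).red t

theorem lab_pre {𝓔 : Ends mk} {cap} : ∀ {a : Option Q3} {s c}, 𝓔.Lab a s c → (𝓔.pre cap).Lab a s c
  | none, _, _, h => h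
  | some _, _, _, h => h

variable (mk) in
/-- **P-MK** -/
theorem mkStmt : MkStmt mk := fun g m 𝓔 G a B C P D Z Q Γ cap b θ => by
  have d := fun θ => (Q.hd θ).1
  refine ⟨fun c h => lab_pre ((Q.lb θ).1 c ((d θ).symm ▸ h)), fun c h => lab_pre ((Q.lb θ).2 c ((d θ).symm ▸ h)),
    ?_, ?_, ?_⟩ <;> intro ha <;> obtain ⟨A, rfl⟩ := Option.ne_none_iff_exists'.1 ha
  all_goals
    have o := Q.tC.o
    have n := o.nc.trans (nb0 P.toPG0).1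
    have cb := fun h => cb_of o.toOnP (Q.cP.hs θ) (Q.cP.ht θ) (Q.cP.ro θ).en h
    have co : ∀ θ, Cob mk (Q.cP.c θ).toMM := fun θ =>
      ⟨Q.cP.pk (Ends.en_q _) (Ends.en_q _) θ, (g.ts 𝓔 G _ (tp_fin _ B C)).bd.imp fun _ k i => k _ (Q.cP.ty θ i),
        n, fun e => (nomatch (congrArg _ e).symm.trans o.pin), Option.map_eq_none_iff.1 o.p3⟩
    have f1 : pm P.X.X.I P.X.X.I (P.ρ b).φ ((Q.cP.c (θ.rs b)).fo 0) = (1 / 2 : ℝ) • (P.ρ b).fm P.η θ.k := by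
      rw [(Q.fo _).1, Dr59.pm_smul]; rfl
  · intro h x hx
    have := m.tp ((Γ.Γ b).c θ) _ x (ens0 (𝓔.TP G (some A) B C) _) (Γ.Γ b).C (((Γ.Γ b).im θ).M ▸ cb h)
      (cl_itv _ θ) ((d θ).symm ▸ hx)
    rwa [n, Nat.cast_zero, mul_zero, sub_zero, Nat.cast_one] at this
  · exact fun h => hi0 _ θ g.lf (Ends.en_q _) (co θ) (by rwa [f1, (Q.fo _).1, two_half, two_half, d])
  · exact fun h hb hc => hi1 _ θ g.lf m.wc (Γ.bl b) ⟨_, rfl, (𝓔.q A).kd⟩ ⟨_, rfl, (𝓔.q A).kd⟩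
      (ei_iso o o (rIso (P.ρ b) (nb0 P.toPG0).1)) co (cb h) (by rw [d, d]; exact (P.ρ b).pb _) hb
      ((d θ).symm ▸ hc) ((Q.fo _).1 0) f1

end Crest.Agent.X212.Mk5
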